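import Vale.Agent.P275TB.Man
import Vale.Agent.P275XI.Kap
import Vale.Agent.P275B.Lt
import Vale.Agent.P275BW.Wk

/-!
# P275, the restriction from `Z_j` to `Z_(j+1)` has weight two
-/

open scoped Manifold ContDiff Topology
open Set Function Topology CategoryTheory
open Vale.Agent.P272.K Vale.Agent.P281Z.Hg Vale.Agent.P275MC Vale.Agent.P275FM Vale.Agent.P275AR
  Vale.Agent.P275XI Vale.Agent.P275B Vale.Agent.P275TB Vale.Agent.P275CH Vale.Agent.P275BW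
open Vale.Agent.P275Z hiding mu
open Vale.Agent.P281Z (holM_id)
open Vale.Agent.P275RG (Alg)
open P275S (H Hd c1 c1_mem c1_pb c1_triv c1_iso)
open P275CC (LB Nc PFib inc)

set_option linter.unusedSectionVars false

noncomputable section

namespace Vale.Agent.P275IG

/-- the first Chern class vanishes on a chart -/
theorem vn_U {X : Type} [TopologicalSpace X] (L : LB X) (p : L.ι) :
    Vn (c1 (X := TopCat.of X) L) (L.U p) :=
  (c1_pb (TopCat.ofHom (inc (L.U p))) L).symm.trans (c1_triv ⟨fun i x => L.g i p x,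
    ⟨fun i => (L.ct i p).comp continuous_subtype_val.continuousOn fun x hx => ⟨hx.1, x.2⟩,
      fun i j x hi hj _ => (L.cc i j p x hi hj x.2).symm⟩, fun _ x hx => L.ne hx x.2⟩)

variable (W : WF) {b : ℕ} {B : Mn b} {c : Cv B}

section flat

variable {d d' D D' : ℕ} {M : Vr d} {M' : Vr d'} {F : Fl c M D} {F' : Fl c M' D'} {E : Type}
  [TopologicalSpace E] {π : E → M.X} {a : c.ι → c.ι → E → E} {T : E → E → ℂ → Prop}

/-- the first Chern class vanishes off a sub-bundle whose complement lies in a chart -/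
theorem vn_off {f t} (h : Hm0 F' F (fun _ => f) t) (l : Loc (prT F π) (TT a T)) {O : Set E}
    {β : E → ℂ} (s : Sem T O β) (hO : ∀ i j z, z ∈ O → a i j z ∈ O)
    (hβ : ∀ i j z, β (a i j z) = β z) (e : ∀ z ∉ O, π z ∈ range f) :
    Vn (c1 (X := TopCat.of F.T.X) l.lb) (range t)ᶜ := by
  have := nc D F.T.X
  have h1 : Continuous fun v : ET c E => v.2.2 := continuous_sigma fun _ => continuous_snd
  refine vn_mono (vn_U l.lb ⟨({w | w.2.2 ∈ O}, fun w => β w.2.2), s.op.preimage h1,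
    s.ct.comp h1.continuousOn fun _ k => k, fun _ k => s.nz _ k, fun u v r k m =>
      (s.law _ _ r k.2 (hO _ _ _ m)).imp id fun l => l.trans (hβ _ _ _)⟩) fun x hx => ?_
  obtain ⟨w, rfl⟩ := l.oq.surjective x
  refine ⟨w, not_not.1 fun k => hx (h.mem_range.2 ⟨w.1, _, w.2.1.2, (q_prT w).symm, ?_⟩), rfl⟩
  exact (φ_prT (F := F) w).symm ▸ e _ k

theorem hm_eq {d'' D'' : ℕ} {M'' : Vr d''} {F'' : Fl c M'' D''} {f t g u k v}
    (h : Hm0 F' F (fun _ => f) t) (h' : Hm0 F'' F' (fun _ => g) u) (h'' : Hm0 F'' F (fun _ => k) v)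
    (e : ∀ y, f (g y) = k y) (x : F''.T.X) : t (u x) = v x :=
  let ⟨i, hi⟩ := c.cov (F''.q x)
  have h1 := (h.comp h').qt x
  Fl.ext' (i := i) (h1.symm ▸ hi) (h1.trans (h''.qt x).symm)
    (((h.comp h').φt i x hi).trans ((e _).trans (h''.φt i x hi).symm))

/-- equivariant maps of the presentations give maps of flat bundles -/
theorem hm_of {E' : Type} [TopologicalSpace E'] {π' : E' → M'.X} {a' : c.ι → c.ι → E' → E'}
    (h' : Lf F' π' a') (h : Lf F π a) (so : Surjective π') {f} (alg : Alg M'.cp M.cp f)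
    (G : E' → E) (e : ∀ z, f (π' z) = π (G z)) (k : ∀ i j z, G (a' i j z) = a i j (G z)) :
    ∃ t, Hm0 F' F (fun _ => f) t :=
  F'.ex_hm F holM_id (fun _ _ h => h) (fun _ => alg) fun i j m y => by
    obtain ⟨z, rfl⟩ := so y
    exact (congrArg f (h'.tr i j m z)).trans ((e _).trans ((congrArg π (k i j z)).trans
      ((h.tr i j m _).symm.trans (congrArg _ (e z).symm))))

end flat

/-- the deformation to the normal cone, on flat bundles -/
theorem gy_fl {y z DY DZ DV DX : ℕ} {Y : Vr y} {Z : Vr z} {V : Vr (y + 1)} {X : Vr (z + 1)}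
    {FY : Fl c Y DY} {FZ : Fl c Z DZ} {FV : Fl c V DV} {FX : Fl c X DX}
    (hc : ∀ i, IsPreconnected (c.V i)) (hy : y = z + 1) {s₀ s e₀ e q₀ q i₀ i ρ₀ ρ σ₀ σ}
    (hs : Hm0 FY FV (fun _ => s₀) s) (he : Hm0 FX FV (fun _ => e₀) e)
    (hq : Hm0 FV FY (fun _ => q₀) q) (hi : Hm0 FZ FY (fun _ => i₀) i)
    (hρ : Hm0 FX FZ (fun _ => ρ₀) ρ) (hσ : Hm0 FZ FX (fun _ => σ₀) σ)
    (cs : IsClosedEmbedding s₀) (ce : IsClosedEmbedding e₀) (pρ : IsProperMap ρ₀)
    (pσ : IsProperMap σ₀) (qs : ∀ x, q₀ (s₀ x) = x) (qe : ∀ x, q₀ (e₀ x) = i₀ (ρ₀ x))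
    (ρσ : ∀ x, ρ₀ (σ₀ x) = x) (L : LB FV.T.X) (L' : LB FX.T.X)
    (hL : L'.Iso (L.pb ⟨e, he.smo.cont⟩)) (v1 : Vn (c1 (X := TopCat.of FV.T.X) L) (range s)ᶜ)
    (v2 : Vn (c1 (X := TopCat.of FV.T.X) L) (range e)ᶜ) (pf : ∀ x, PFib L' (ρ ⁻¹' {x}) 1 1)
    (g3 : Grd (wH W FZ) (wH W FX) 2 (P275S.pb (tm hρ.smo)).toLinearMap) :
    Grd (wH W FY) (wH W FZ) (-2) (P275S.pb (tm hi.smo)).toLinearMap := by
  have n1 := nc DV FV.T.X
  have cs' := hs.cemb .id fun _ => cs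
  have ce' := he.cemb .id fun _ => ce
  have as := act_univ hs.smo cs'.isProperMap
  have ae := act_univ he.smo ce'.isProperMap
  have pρ' := hρ.proper isProperMap_id fun _ => pρ
  have aρ := act_univ hρ.smo pρ'
  have d1 := FY.dim
  have d2 := FZ.dim
  have d3 := FV.dim
  have d4 := FX.dim
  have hE := pb_of (r := 1) (by omega) pρ' aρ
    (act_univ hσ.smo (hσ.proper isProperMap_id fun _ => pσ))
    (hm_eq hρ hσ (hm_id FZ) ρσ) L' one_ne_zero pf
  obtain ⟨m, m0, m1⟩ := ex_gys (m := 0) cs' as (by omega) (c1_mem _) v1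
  obtain ⟨l', l0, l1⟩ := ex_gys (m := 0) ce' ae (by omega) (c1_mem _) v2
  obtain ⟨l, l2, rfl⟩ := ex_zero hE (c1_mem _) l0
  refine gy (q := P275S.pb (tm hq.smo)) (ρg := gys aρ) (gys_mul as) (gys_mul ae) (fun x => ?_)
    (fun x => ?_) ?_ (m1.symm.trans l1) (pb_gys ce' ae) (ce_even DY m0 Even.zero)
    (ce_even DZ l2 Even.zero) (gr_wH W FY) (gr_wH W FZ) (gr_wH W FX) (gr_wH W FV)
    (grd_gys W hs isProperMap_id (fun _ => cs.isProperMap) as)
    (grd_gys W he isProperMap_id (fun _ => ce.isProperMap) ae) g3 (mg_zero W FY hc m0)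
    (mg_zero W FZ hc l2)
  · rw [P275S.pb_comp, show tm hs.smo ≫ tm hq.smo = 𝟙 _ from
      TopCat.ext fun x => hm_eq hq hs (hm_id FY) qs x, P275S.pb_id]
  · rw [P275S.pb_comp, P275S.pb_comp, show tm he.smo ≫ tm hq.smo = tm hρ.smo ≫ tm hi.smo from
      TopCat.ext fun x => hm_eq hq he (hi.comp hρ) qe x]
  · exact m1 ▸ (c1_iso (X := TopCat.of FX.T.X) hL).trans (c1_pb (tm he.smo) L) ▸ hE

variable {n g : ℕ} {d : ℤ} (j : Fin (nr n))

theorem ct_w {k : ℕ} {J : Type} {S : Set (KB n J → ℂ)} (i : J) :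
    Continuous fun z : EB g k d S => z.1.2 i :=
  (continuous_apply i).comp continuous_subtype_val.snd

/-- the chart `u ≠ 0` -/
theorem sem_u : Sem (TB (g := g) (k := j) (d := d) (S := TW j) (mW j) eW 0 (-1))
    {z | z.1.2 (some none) ≠ 0} fun z => z.1.2 (some none) := by
  refine ⟨isOpen_ne_fun (ct_w _) continuous_const, (ct_w _).continuousOn, fun _ k => k, ?_⟩
  rintro z z' _ ⟨h, t, -, h2, h3, rfl⟩ k
  have h4 : z.1.2 (some none) = t ^ (1 : ℤ) * (ch 0 h * _) := h3 (some none)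
  rw [ch_zero, one_mul, zpow_one] at h4
  exact ⟨h4.trans_ne (mul_ne_zero h2 k), by simp [h4, ch_zero, mul_comm t, h2]⟩

/-- the coordinates `τ`, `s` -/
def ts (z : EB g j d (TW j)) : Fin 2 → ℂ := ![z.1.2 none, z.1.1.1.1 (ra j) (rb j)]

/-- the coordinates `u`, `v` -/
def uv (z : EB g j d (TW j)) : Fin 2 → ℂ := ![z.1.2 (some none), z.1.2 (some (some 0))]

theorem uv_ne (z : EB g j d (TW j)) : uv j z ≠ 0 := fun e => by
  obtain ⟨-, i, k⟩ := z.2
  rcases i with _ | i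
  exacts [k (congrFun e 0), k (Subsingleton.elim 0 i ▸ congrFun e 1)]

theorem ex_lam {z : EB g j d (TW j)} (k : ts j z ≠ 0) : ∃ c : ℂ, uv j z = c • ts j z := by
  have h : ts j z 0 * uv j z 1 - ts j z 1 * uv j z 0 = 0 := z.2.1
  by_cases l : ts j z 0 = 0
  · have l' : ts j z 1 ≠ 0 := fun l' => k (funext (Fin.forall_fin_two.2 ⟨l, l'⟩))
    refine ⟨uv j z 1 / ts j z 1, funext (Fin.forall_fin_two.2 ⟨?_, ?_⟩)⟩
    · simpa [l, l'] using h
    · simp [l']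
  · refine ⟨uv j z 0 / ts j z 0, funext (Fin.forall_fin_two.2 ⟨by simp [l], ?_⟩)⟩
    rw [Pi.smul_apply, smul_eq_mul, div_mul_eq_mul_div, eq_div_iff l]
    linear_combination h

/-- the chart off the exceptional divisor -/
theorem sem_l : Sem (TB (g := g) (k := j) (d := d) (S := TW j) (mW j) eW 0 (-1))
    {z | ts j z ≠ 0} fun z => sca (ts j z) (uv j z) := by
  have c1 : Continuous (ts (g := g) (d := d) j) := continuous_pi (Fin.forall_fin_two.2
    ⟨ct_w _, (continuous_subtype_val.comp (continuous_subtype_val.fst :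
      Continuous fun z : EB g j d (TW j) => z.1.1)).fst.matrix_elem _ _⟩)
  have c2 : Continuous (uv (g := g) (d := d) j) :=
    continuous_pi (Fin.forall_fin_two.2 ⟨ct_w _, ct_w _⟩)
  refine ⟨isOpen_ne_fun c1 continuous_const, sca_ct c1.continuousOn c2.continuousOn fun _ k => k,
    fun z k e => ?_, ?_⟩
  · obtain ⟨c, l⟩ := ex_lam j k
    exact uv_ne j z (by rw [l, ← sca_of k l, e, zero_smul])
  rintro z z' _ ⟨h, t, ⟨a, b, h1, -⟩, h2, h3, rfl⟩ k
  obtain ⟨c, l⟩ := ex_lam j k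
  have h4 : ts j z 0 = t ^ (0 : ℤ) * (ch 0 h * ts j z' 0) := h3 none
  have h5 : ts j z 1 = ch (rtw j) h * ts j z' 1 :=
    (congrFun (congrFun h1 _) _).trans (root_conj j a b z'.1.1.2.1)
  have h6 : uv j z 0 = t ^ (1 : ℤ) * (ch 0 h * uv j z' 0) := h3 (some none)
  have h7 : uv j z 1 = t ^ (1 : ℤ) * (ch (rtw j) h * uv j z' 1) := h3 (some (some 0))
  rw [ch_zero, one_mul, zpow_zero, one_mul] at h4
  have h8 : ts j z ≠ 0 := fun e => k (funext (Fin.forall_fin_two.2 ⟨h4.symm.trans (congrFun e 0),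
    (mul_eq_zero.1 (h5.symm.trans (congrFun e 1))).resolve_left (ch_ne _ (mem_bor.1 a) b)⟩))
  refine ⟨h8, ?_⟩
  rw [sca_of k l, sca_of h8 (c := t * c) (funext (Fin.forall_fin_two.2 ⟨?_, ?_⟩))]
  · simp [ch_zero, mul_comm t, h2]
  · simp [h6, h4, l, ch_zero, mul_assoc]
  · simp only [h7, h5, l, Pi.smul_apply, smul_eq_mul, zpow_one]
    ring

/-- **GY**, for given total spaces -/
theorem gyI (hc : ∀ i, IsPreconnected (c.V i)) {t : c.ι → c.ι → Aut g n}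
    {a a' a₁ a₂ D D' DY DZ DV DX : ℕ} (hD : D = D' + 1) {Y : BN g j d le_rfl a D}
    {Z : BN g (j + 1) d le_rfl a' D'} {V : BB g j d (bor n) (mW j) eW (TW j) a₁ (D + 1)}
    {X : BB g (j + 1) d (bor n) (mP (rtw j) 0) 1 (T0 n _) a₂ (D' + 1)} {FY : Fl c Y.vr DY}
    {FZ : Fl c Z.vr DZ} {FV : Fl c V.vr DV} {FX : Fl c X.vr DX}
    (lY : Lf FY (BFr.pt _) fun i l => bap (t i l)) (lZ : Lf FZ (BFr.pt _) fun i l => bap (t i l))
    (lV : Lf FV (ptB _ _ _) fun i l => apB (t i l)) (lX : Lf FX (ptB _ _ _) fun i l => apB (t i l))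
    (oV : Loc (prT FV (ptB _ _ _)) (TT (fun i l => apB (t i l)) (TB (mW j) eW 0 (-1))))
    (oX : Loc (prT FX (ptB _ _ _)) (TT (fun i l => apB (t i l)) (TB (mP (rtw j) 0) 1 0 (-1))))
    (pf : ∀ ρ, Hm0 FX FZ (fun _ => prB le_rfl) ρ → ∀ y, PFib oX.lb (ρ ⁻¹' {y}) 1 1)
    (pbe : ∀ ρ (h : Hm0 FX FZ (fun _ => prB le_rfl) ρ),
      Grd (wH W FZ) (wH W FX) 2 (P275S.pb (tm h.smo)).toLinearMap)
    {i} (h : Hm0 FZ FY (fun _ => tyB le_rfl (nk_anti (Nat.le_succ j))) i) :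
    Grd (wH W FY) (wH W FZ) (-2) (P275S.pb (tm h.smo)).toLinearMap := by
  have I := inc_W (g := g) (d := d) j
  obtain ⟨s, hs⟩ := hm_of lY lV pt_onto (alg_scB le_rfl V (j := some (some 0)) rfl (sgl_TW j) Y)
    (fun p => ⟨(p, Pi.single _ 1), sgl_TW j p⟩) (fun _ => rfl) fun _ _ _ => rfl
  obtain ⟨e, he⟩ := hm_of lX lV ptB_onto (I.alg X V) I.fr (fun _ => rfl) fun _ _ _ => rfl
  obtain ⟨q, hq⟩ := hm_of lV lY ptB_onto (alg_prB V Y) (·.1.1) (fun _ => rfl) fun _ _ _ => rfl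
  obtain ⟨ρ, hρ⟩ := hm_of lX lZ ptB_onto (alg_prB X Z) (·.1.1) (fun _ => rfl) fun _ _ _ => rfl
  obtain ⟨σ, hσ⟩ := hm_of lZ lX pt_onto (alg_scB le_rfl X (j := none) rfl (sgl_T0 _) Z)
    (fun p => ⟨(p, Pi.single _ 1), sgl_T0 _ p⟩) (fun _ => rfl) fun _ _ _ => rfl
  refine gy_fl W hc hD hs he hq h hρ hσ (emb_scB le_rfl V _ _ Y).2 (I.emb X le_rfl V).2
    (proper_prB Z) (emb_scB le_rfl X _ _ Z).2.isProperMap (prB_scB _ _ _) (I.prB_map _)
    (prB_scB _ _ _) oV.lb oX.lb (oV.iso_pb oX (cont_mT (V.toE (I.crd X)).cont) _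
      (he.prT fun _ => rfl) ?_)
    (vn_off hs oV (sem_u j) (fun _ _ _ k => k) (fun _ _ _ => rfl) fun z k => ?_)
    (vn_off he oV (sem_l j) (fun _ _ _ k => k) (fun _ _ _ => rfl) fun z k => ?_) (pf ρ hρ)
    (pbe ρ hρ)
  · rintro w w' _ ⟨k, u, r, h1, h2, h3, h4⟩
    refine ⟨k, u, r, h1, h2, ?_, h4⟩
    rintro (_ | l)
    · simp [mT, Inc.fr, apB]
    · simpa [mT, Inc.fr, apB, (Option.some_injective _).extend_apply, eW, mW] using h3 l
  · have h1 : uv j z 0 = 0 := not_not.1 k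
    have h2 : uv j z 1 ≠ 0 := fun l => uv_ne j z (funext (Fin.forall_fin_two.2 ⟨h1, l⟩))
    have h3 : ts j z 0 * uv j z 1 - ts j z 1 * uv j z 0 = 0 := z.2.1
    refine (mem_scB le_rfl _ _).2 ⟨h2, ?_⟩
    rintro (_ | _ | l) m
    · rw [h1, mul_zero, sub_zero] at h3
      exact (mul_eq_zero.1 h3).resolve_right h2
    · exact h1
    · exact (m (by rw [Subsingleton.elim l 0])).elim
  · have h1 : ts j z = 0 := not_not.1 k
    refine (I.mem_range le_rfl).2 ⟨(mem_nk_succ j z.1.1.2.1).2 (congrFun h1 1), ?_⟩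
    rintro (_ | l) m
    exacts [congrFun h1 0, (m ⟨l, rfl⟩).elim]

end Vale.Agent.P275IG
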